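import Mathlib

/-!
The perceptron models with the objects of the problem text: Euclidean space, the uniform measure
of the cube, the normalized surface (Hausdorff) measure of the sphere, Gaussian vectors.
-/

namespace Vale.Agent.P157W88

open MeasureTheory ProbabilityTheory
open scoped InnerProductSpace

/-- Euclidean space `ℝ^N`. -/
abbrev E (N : ℕ) : Type := EuclideanSpace ℝ (Fin N)

/-- The uniform probability measure on the Ising cube `{-1,1}^N`. -/
noncomputable def cubeLaw (N : ℕ) : Measure (E N) :=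
  uniformOn {x | ∀ i, x i = 1 ∨ x i = -1}

/-- The normalized surface measure on the sphere `‖x‖ ^ 2 = N`: the Hausdorff measure of
dimension `N - 1`, restricted to the sphere and divided by its total mass. -/
noncomputable def sphereLaw (N : ℕ) : Measure (E N) :=
  cond μH[(N : ℝ) - 1] {x | ‖x‖ ^ 2 = N}

/-- The pressure `p_N(f)` for the patterns `g`. -/
noncomputable def press {M N : ℕ} (μ : Measure (E N)) (f : ℝ → ℝ) (g : Fin M → E N) : ℝ :=
  1 / N * Real.log (∫ x, Real.exp (∑ a, f (⟪g a, x⟫_ℝ / √(N : ℝ))) ∂μ)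

/-- `g 1, ..., g M` are independent standard Gaussian vectors on the probability space `(Ω, P)`. -/
structure IsPatterns {Ω : Type*} [MeasurableSpace Ω] (P : Measure Ω) {M N : ℕ}
    (g : Fin M → Ω → E N) : Prop where
  prob : IsProbabilityMeasure P
  indep : iIndepFun g P
  law : ∀ a, HasLaw (g a) (stdGaussian (E N)) P

/-- For `M = ⌊α N⌋` patterns on arbitrary probability spaces, `E p_N(f)` exists and tends to `L`. -/
def Limit (μ : (N : ℕ) → Measure (E N)) (α : ℝ) (f : ℝ → ℝ) (L : ℝ) : Prop :=
  ∀ (Ω : ℕ → Type) [∀ N, MeasurableSpace (Ω N)] (P : (N : ℕ) → Measure (Ω N))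
    (g : (N : ℕ) → Fin ⌊α * N⌋₊ → Ω N → E N), (∀ N, IsPatterns (P N) (g N)) →
    (∀ N, 1 ≤ N → Integrable (fun ω => press (μ N) f fun a => g N a ω) (P N)) ∧
    Filter.Tendsto (fun N => ∫ ω, press (μ N) f (fun a => g N a ω) ∂(P N)) Filter.atTop (nhds L)

end Vale.Agent.P157W88
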