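import Vale.Agent.P157W88.Sph
import Vale.Agent.P157.Bdl.B16
import Vale.Agent.P157.Bdl.B17

namespace Vale.Agent.P157W88

open MeasureTheory ProbabilityTheory Filter Topology Vale.Agent.P157
open scoped InnerProductSpace ENNReal NNReal

theorem eq_uniformOn {X : Type*} [MeasurableSpace X] [MeasurableSingletonClass X]
    {ν : Measure X} [IsProbabilityMeasure ν] {C : Set X} (hC : C.Finite)
    (h0 : ∀ᵐ x ∂ν, x ∈ C) {c : ℝ≥0∞} (hc : ∀ x ∈ C, ν {x} = c) : uniformOn C = ν := by
  classical
  lift C to Finset X using hC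
  have key : ∀ s : Set X, ν s = (C.filter (· ∈ s)).card * c := by
    intro s
    have : ν s = ν (C.filter (· ∈ s) : Finset X) := by
      refine measure_congr ?_
      filter_upwards [h0] with x hx
      have hx' : x ∈ C := hx
      refine propext ?_
      change x ∈ s ↔ x ∈ ((C.filter (· ∈ s) : Finset X) : Set X)
      simp [hx']
    rw [this, ← sum_measure_singleton, Finset.sum_congr rfl fun x hx =>
      hc x (Finset.mem_filter.1 hx).1]
    simp
  have h1 : (C.card : ℝ≥0∞) * c = 1 := by
    have := key Set.univ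
    simpa using this.symm
  have h2 : c = (C.card : ℝ≥0∞)⁻¹ := ENNReal.eq_inv_of_mul_eq_one_left (by rw [mul_comm, h1])
  ext s _
  rw [key, ← uniformOn_inter_self C.finite_toSet]
  have : (C : Set X) ∩ s = (C.filter (· ∈ s) : Finset X) := by
    ext x; simp
  rw [this, uniformOn_apply_finset, Finset.inter_eq_right.2 (Finset.filter_subset _ _), h2,
    div_eq_mul_inv]

theorem cube_prob (N : ℕ) : IsProbabilityMeasure (cube N) := by unfold cube; infer_instance

theorem cubeLaw_eq (N : ℕ) : cubeLaw N = (cube N).map (WithLp.toLp 2) := by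
  have hm : Measurable (WithLp.toLp 2 : (Fin N → ℝ) → E N) := by fun_prop
  haveI := cube_prob N
  haveI := Measure.isProbabilityMeasure_map (μ := cube N) hm.aemeasurable
  have hC : {x : E N | ∀ i, x i = 1 ∨ x i = -1}.Finite := by
    have h := Set.Finite.pi' fun _ : Fin N => (Set.toFinite ({1, -1} : Set ℝ))
    refine (h.preimage (f := fun x : E N => x.ofLp) (WithLp.ofLp_injective 2).injOn).subset ?_
    intro x hx
    simpa using hx
  refine eq_uniformOn hC ?_ (c := (1 / 2) ^ N) fun x hx => ?_
  · refine (ae_map_iff hm.aemeasurable hC.measurableSet).2 ?_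
    have h1 : ∀ᵐ y ∂((1 / 2 : ENNReal) • (Measure.dirac (1 : ℝ) + Measure.dirac (-1 : ℝ))),
        y = 1 ∨ y = -1 := by
      refine Measure.ae_smul_measure ?_ _
      rw [ae_add_measure_iff]
      simp
    have h2 : ∀ i : Fin N, ∀ᵐ x ∂(cube N), x i = 1 ∨ x i = -1 := fun i =>
      (Measure.tendsto_eval_ae_ae (μ := fun _ : Fin N =>
        (1 / 2 : ENNReal) • (Measure.dirac (1 : ℝ) + Measure.dirac (-1 : ℝ)))
        (i := i)).eventually h1
    exact ae_all_iff.2 h2
  · rw [Measure.map_apply hm (measurableSet_singleton _)]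
    have : (WithLp.toLp 2 : (Fin N → ℝ) → E N) ⁻¹' {x} = Set.univ.pi fun i => {x i} := by
      ext z
      simp only [Set.mem_preimage, Set.mem_singleton_iff, Set.mem_pi, Set.mem_univ,
        forall_const]
      exact ⟨fun h i => by rw [← h], fun h => by ext i; exact h i⟩
    rw [this, cube, Measure.pi_pi, Finset.prod_congr rfl (g := fun _ => 1 / 2) fun i _ => ?_]
    · simp
    · have e1 : (1 : ℝ) ≠ -1 := by norm_num
      rcases hx i with h | h <;> simp [h, e1, e1.symm]

theorem sphereLaw_eq {N : ℕ} (hN : 1 ≤ N) : sphereLaw N = (usphere N).map (WithLp.toLp 2) := by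
  rw [sphereLaw_gauss hN, ← map_pi_eq_stdGaussian, usphere,
    Measure.map_map (by fun_prop) (by fun_prop), Measure.map_map (by fun_prop) (by fun_prop)]
  congr 1
  funext z
  ext i
  simp only [Function.comp_apply, PiLp.smul_apply, smul_eq_mul, EuclideanSpace.norm_eq,
    Real.norm_eq_abs, sq_abs]
  ring

theorem sphereLaw_toSphere {N : ℕ} (hN : 1 ≤ N) :
    sphereLaw N = (((volume : Measure (E N)).toSphere Set.univ)⁻¹ •
      (volume : Measure (E N)).toSphere).map fun u : Metric.sphere (0 : E N) 1 => √(N : ℝ) • u.1 := by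
  haveI : NeZero N := ⟨by omega⟩
  rw [sphereLaw_eq hN, usphere_eq, sphere, Measure.map_map (by fun_prop) (by fun_prop)]
  congr 1

theorem press_eq {M N : ℕ} (μ : Measure (Fin N → ℝ)) {f : ℝ → ℝ} (hf : Measurable f)
    (h : Fin M → Fin N → ℝ) :
    press (μ.map (WithLp.toLp 2)) f (fun a => WithLp.toLp 2 (h a)) = pressure μ f h := by
  rw [press, pressure, integral_map (by fun_prop) (Measurable.aestronglyMeasurable (by fun_prop))]
  simp only [PiLp.inner_apply, RCLike.inner_apply, conj_trivial, mul_comm]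

theorem press_meas {M N : ℕ} (μ : Measure (E N)) [SFinite μ] {f : ℝ → ℝ} (hf : Measurable f) :
    Measurable fun g : Fin M → E N => press μ f g := by
  have h0 : Measurable fun z : (Fin M → E N) × E N =>
      Real.exp (∑ a, f (⟪z.1 a, z.2⟫_ℝ / √(N : ℝ))) := by fun_prop
  exact ((h0.stronglyMeasurable.integral_prod_right' (ν := μ)).measurable.log).const_mul _

theorem limit_of {μ : (N : ℕ) → Measure (E N)} {μ' : (N : ℕ) → Measure (Fin N → ℝ)}
    (hp : ∀ N, IsProbabilityMeasure (μ' N))
    (hμ : ∀ N, 1 ≤ N → μ N = (μ' N).map (WithLp.toLp 2)) {f : ℝ → ℝ} (hf : Measurable f) {B : ℝ}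
    (hB : ∀ x, |f x| ≤ B) {α L : ℝ} (hL : Tendsto (meanPressure μ' α f) atTop (𝓝 L)) :
    Limit μ α f L := by
  intro Ω _ P g hg
  have hm : ∀ N : ℕ, 1 ≤ N → Measurable fun g : Fin ⌊α * N⌋₊ → E N => press (μ N) f g := by
    intro N hN
    rw [hμ N hN]
    exact press_meas _ hf
  have hl := fun N => (hg N).indep.hasLaw_pi (hg N).law
  refine ⟨fun N hN => ?_, hL.congr' ?_⟩
  · haveI := (hg N).prob
    refine Integrable.of_bound ((hm N hN).comp_aemeasurable (hl N).aemeasurable).aestronglyMeasurable
      (1 / N * (⌊α * N⌋₊ * B)) (ae_of_all _ fun ω => ?_)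
    have := press_eq (μ' N) hf fun a => (g N a ω).ofLp
    simp only [WithLp.toLp_ofLp] at this
    rw [hμ N hN, this, Real.norm_eq_abs]
    exact Par.abs_pressure_le _ hf hB _
  · filter_upwards [eventually_ge_atTop 1] with N hN
    have e := (hl N).integral_comp (hm N hN).aestronglyMeasurable
    have e2 : (Measure.pi fun _ : Fin ⌊α * N⌋₊ => stdGaussian (E N)) =
        (patterns ⌊α * N⌋₊ N).map fun h a => WithLp.toLp 2 (h a) := by
      rw [patterns, Measure.pi_map_pi (fun _ => by fun_prop)]
      simp only [map_pi_eq_stdGaussian]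
    rw [e2, integral_map (Measurable.aemeasurable (by fun_prop))
      (hm N hN).aestronglyMeasurable] at e
    rw [meanPressure]
    refine Eq.trans ?_ e.symm
    simp only [hμ N hN, press_eq _ hf]

theorem exists_patterns (M N : ℕ) : ∃ (Ω : Type) (_ : MeasurableSpace Ω) (P : Measure Ω)
    (g : Fin M → Ω → E N), IsPatterns P g :=
  ⟨Fin M → E N, inferInstance, Measure.pi fun _ => stdGaussian (E N), fun a ω => ω a,
    inferInstance, iIndepFun_pi (X := fun _ => id) fun _ => aemeasurable_id,
    fun a => (measurePreserving_eval (fun _ : Fin M => stdGaussian (E N)) a).hasLaw⟩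

theorem cubeLaw_prob (N : ℕ) : IsProbabilityMeasure (cubeLaw N) := by
  rw [cubeLaw_eq]
  haveI := cube_prob N
  exact Measure.isProbabilityMeasure_map (by fun_prop)

theorem usphere_prob (N : ℕ) : IsProbabilityMeasure (usphere N) := by
  unfold usphere
  refine Measure.isProbabilityMeasure_map ?_
  exact (measurable_pi_iff.2 fun i => by fun_prop).aemeasurable

end Vale.Agent.P157W88
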