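import Vale.Agent.P157W88.Defs

namespace Vale.Agent.P157W88

open MeasureTheory ProbabilityTheory Filter Topology
open scoped InnerProductSpace ENNReal NNReal

section uniq

variable {F : Type*} [NormedAddCommGroup F] [InnerProductSpace ℝ F] [FiniteDimensional ℝ F]
  [MeasurableSpace F] [BorelSpace F]

theorem charFun_eq_of_norm {μ : Measure F} (hμ : ∀ T : F ≃ₗᵢ[ℝ] F, μ.map T = μ) {s t : F}
    (h : ‖s‖ = ‖t‖) : charFun μ s = charFun μ t := by
  set T : F ≃ₗᵢ[ℝ] F := (ℝ ∙ (s - t))ᗮ.reflection with hT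
  have e : T s = t := Submodule.reflection_sub h
  rw [← e]
  conv_rhs => rw [← hμ T]
  rw [charFun_apply, charFun_apply, integral_map T.continuous.measurable.aemeasurable
    (by fun_prop)]
  simp only [LinearIsometryEquiv.inner_map_map]

theorem eq_of_invariant {μ ν : Measure F} [IsProbabilityMeasure μ] [IsProbabilityMeasure ν]
    (hμ : ∀ T : F ≃ₗᵢ[ℝ] F, μ.map T = μ) (hν : ∀ T : F ≃ₗᵢ[ℝ] F, ν.map T = ν) {R : ℝ}
    (hR : 0 < R) (aμ : ∀ᵐ x ∂μ, ‖x‖ = R) (aν : ∀ᵐ x ∂ν, ‖x‖ = R) : μ = ν := by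
  refine Measure.ext_of_charFun (funext fun t => ?_)
  set s : ℝ := ‖t‖ / R with hs
  have key : ∀ (a b : Measure F) [IsProbabilityMeasure b], (∀ T : F ≃ₗᵢ[ℝ] F, a.map T = a) →
      (∀ᵐ x ∂b, ‖x‖ = R) →
      charFun a t = ∫ x, ∫ y, Complex.exp ((s * ⟪y, x⟫_ℝ : ℝ) * Complex.I) ∂a ∂b := by
    intro a b _ ha ab
    have : ∀ᵐ x ∂b, ∫ y, Complex.exp ((s * ⟪y, x⟫_ℝ : ℝ) * Complex.I) ∂a = charFun a t := by
      filter_upwards [ab] with x hx
      have hn : ‖s • x‖ = ‖t‖ := by
        rw [norm_smul, hx, hs, Real.norm_of_nonneg (by positivity)]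
        field_simp
      rw [← charFun_eq_of_norm ha hn, charFun_apply]
      simp only [inner_smul_right]
    rw [integral_congr_ae this]
    simp
  rw [key μ ν hμ aν, key ν μ hν aμ, integral_integral_swap]
  · simp only [real_inner_comm]
  · refine Integrable.of_bound (C := 1) (by fun_prop) (ae_of_all _ fun z => ?_)
    exact (Complex.norm_exp_ofReal_mul_I _).le

end uniq

theorem haus_pos (d : ℕ) :
    μH[(d : ℝ)] {x : E (d + 1) | ‖x‖ ^ 2 = (d + 1 : ℕ)} ≠ 0 := by
  intro h0
  have hL : LipschitzWith 1 fun (x : E (d + 1)) (j : Fin d) => x j.succ := by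
    refine LipschitzWith.of_dist_le_mul fun x y => ?_
    rw [NNReal.coe_one, one_mul]
    exact (dist_pi_le_iff dist_nonneg).2 fun j => PiLp.dist_apply_le x y _
  have h1 := hL.hausdorffMeasure_image_le (d := d) (by positivity)
    {x : E (d + 1) | ‖x‖ ^ 2 = (d + 1 : ℕ)}
  rw [h0, mul_zero] at h1
  have h2 : Metric.ball (0 : Fin d → ℝ) 1 ⊆ (fun (x : E (d + 1)) (j : Fin d) => x j.succ) ''
      {x : E (d + 1) | ‖x‖ ^ 2 = (d + 1 : ℕ)} := by
    intro u hu
    have hu' : ∀ j, u j ^ 2 ≤ 1 := fun j => by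
      have := (norm_le_pi_norm u j).trans (mem_ball_zero_iff.1 hu).le
      rw [Real.norm_eq_abs] at this
      exact (sq_le_one_iff_abs_le_one _).2 this
    have hs : ∑ j, u j ^ 2 ≤ d := by
      simpa using Finset.sum_le_sum fun j (_ : j ∈ Finset.univ) => hu' j
    refine ⟨WithLp.toLp 2 (Fin.cons √(d + 1 - ∑ j, u j ^ 2) u : Fin (d + 1) → ℝ), ?_, ?_⟩
    · rw [Set.mem_setOf_eq, EuclideanSpace.real_norm_sq_eq, Fin.sum_univ_succ]
      simp only [Fin.cons_zero, Fin.cons_succ]
      rw [Real.sq_sqrt (by linarith)]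
      push_cast
      ring
    · funext j
      simp
  have h3 : (μH[(d : ℝ)] : Measure (Fin d → ℝ)) = volume := by
    simpa using hausdorffMeasure_pi_real (ι := Fin d)
  rw [h3] at h1
  exact (Metric.measure_ball_pos volume (0 : Fin d → ℝ) one_pos).ne'
    (le_antisymm ((measure_mono h2).trans h1) bot_le)

/-- A face of the cube, projected on the sphere. -/
noncomputable def face (d : ℕ) (R : ℝ) (i : Fin (d + 1)) (c : ℝ) (u : Fin d → ℝ) : E (d + 1) :=
  (R / ‖(WithLp.toLp 2 (i.insertNth c u : Fin (d + 1) → ℝ) : E (d + 1))‖) •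
    WithLp.toLp 2 (i.insertNth c u : Fin (d + 1) → ℝ)

theorem face_smooth (d : ℕ) (R : ℝ) (i : Fin (d + 1)) {c : ℝ} (hc : c ≠ 0) :
    ContDiff ℝ 1 (face d R i c) := by
  have h1 : ContDiff ℝ 1 fun u : Fin d → ℝ =>
      (WithLp.toLp 2 (i.insertNth c u : Fin (d + 1) → ℝ) : E (d + 1)) := by
    refine contDiff_euclidean.2 fun j => ?_
    refine Fin.succAboveCases i ?_ (fun k => ?_) j
    · simpa using contDiff_const
    · simpa using contDiff_apply ℝ ℝ k
  have h2 : ∀ u : Fin d → ℝ,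
      (WithLp.toLp 2 (i.insertNth c u : Fin (d + 1) → ℝ) : E (d + 1)) ≠ 0 := by
    intro u h
    have := congrArg (fun x : E (d + 1) => x i) h
    simp [hc] at this
  exact (contDiff_const.div (h1.norm ℝ h2) fun u => norm_ne_zero_iff.2 (h2 u)).smul h1

theorem haus_fin (d : ℕ) :
    μH[(d : ℝ)] {x : E (d + 1) | ‖x‖ ^ 2 = (d + 1 : ℕ)} ≠ ∞ := by
  have h3 : (μH[(d : ℝ)] : Measure (Fin d → ℝ)) = volume := by
    simpa using hausdorffMeasure_pi_real (ι := Fin d)
  have h1 : ∀ (i : Fin (d + 1)) (c : ℝ), c ≠ 0 → μH[(d : ℝ)]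
      (face d √(d + 1 : ℕ) i c '' Metric.closedBall 0 1) < ∞ := by
    intro i c hc
    obtain ⟨K, hK⟩ := ((face_smooth d √(d + 1 : ℕ) i hc).contDiffOn
      (s := Metric.closedBall 0 1)).exists_lipschitzOnWith one_ne_zero (convex_closedBall _ _)
      (isCompact_closedBall _ _)
    refine (hK.hausdorffMeasure_image_le (d := d) (by positivity)).trans_lt ?_
    rw [h3]
    exact ENNReal.mul_lt_top (ENNReal.rpow_lt_top_of_nonneg (by positivity) ENNReal.coe_ne_top)
      measure_closedBall_lt_top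
  have h2 : {x : E (d + 1) | ‖x‖ ^ 2 = (d + 1 : ℕ)} ⊆
      ⋃ i, (face d √(d + 1 : ℕ) i 1 '' Metric.closedBall 0 1 ∪
        face d √(d + 1 : ℕ) i (-1) '' Metric.closedBall 0 1) := by
    intro x hx
    rw [Set.mem_setOf_eq] at hx
    have hn : ‖x‖ = √(d + 1 : ℕ) := by rw [← hx, Real.sqrt_sq (norm_nonneg _)]
    have hx0 : 0 < ‖x‖ := by rw [hn]; positivity
    obtain ⟨i, -, hi⟩ := Finset.exists_max_image Finset.univ (fun j => |x j|)
      Finset.univ_nonempty
    have ha : 0 < |x i| := by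
      by_contra hle
      have : x = 0 := by
        ext j
        have := (hi j (Finset.mem_univ _)).trans (not_lt.1 hle)
        simpa using this
      simp [this] at hx0
    have key : ∀ c : ℝ, x i = c * |x i| →
        x ∈ face d √(d + 1 : ℕ) i c '' Metric.closedBall 0 1 := by
      intro c hc
      refine ⟨fun k => x (i.succAbove k) / |x i|, ?_, ?_⟩
      · rw [mem_closedBall_zero_iff, pi_norm_le_iff_of_nonneg zero_le_one]
        intro k
        rw [Real.norm_eq_abs, abs_div, abs_abs, div_le_one ha]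
        exact hi _ (Finset.mem_univ _)
      · have e : (WithLp.toLp 2 (i.insertNth c (fun k => x (i.succAbove k) / |x i|) :
            Fin (d + 1) → ℝ) : E (d + 1)) = |x i|⁻¹ • x := by
          ext j
          refine Fin.succAboveCases i ?_ (fun k => ?_) j
          · simp only [Fin.insertNth_apply_same, PiLp.smul_apply, smul_eq_mul]
            rw [inv_mul_eq_div, eq_div_iff ha.ne']
            exact hc.symm
          · simp [div_eq_inv_mul]
        rw [face, e, norm_smul, ← hn, smul_smul, Real.norm_of_nonneg (by positivity)]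
        have : ‖x‖ / (|x i|⁻¹ * ‖x‖) * |x i|⁻¹ = 1 := by field_simp
        rw [this, one_smul]
    refine Set.mem_iUnion.2 ⟨i, ?_⟩
    rcases le_total 0 (x i) with h | h
    · exact Or.inl (key 1 (by rw [abs_of_nonneg h, one_mul]))
    · exact Or.inr (key (-1) (by rw [abs_of_nonpos h]; ring))
  refine ((measure_mono h2).trans_lt ?_).ne
  refine (measure_iUnion_fintype_le _ _).trans_lt (ENNReal.sum_lt_top.2 fun i _ => ?_)
  exact (measure_union_le _ _).trans_lt
    (ENNReal.add_lt_top.2 ⟨h1 i 1 one_ne_zero, h1 i (-1) (by norm_num)⟩)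

theorem meas_sph (N : ℕ) : MeasurableSet {x : E N | ‖x‖ ^ 2 = N} :=
  (isClosed_eq (by fun_prop) continuous_const).measurableSet

theorem sphereLaw_prob {N : ℕ} (hN : 1 ≤ N) : IsProbabilityMeasure (sphereLaw N) := by
  obtain ⟨d, rfl⟩ : ∃ d, N = d + 1 := ⟨N - 1, by omega⟩
  have e : ((d + 1 : ℕ) : ℝ) - 1 = d := by push_cast; ring
  rw [sphereLaw, e]
  exact cond_isProbabilityMeasure_of_finite (haus_pos d) (haus_fin d)

theorem sphereLaw_inv (N : ℕ) (T : E N ≃ₗᵢ[ℝ] E N) : (sphereLaw N).map T = sphereLaw N := by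
  have h1 : (μH[(N : ℝ) - 1] : Measure (E N)).map T = μH[(N : ℝ) - 1] :=
    T.toIsometryEquiv.map_hausdorffMeasure _
  have h2 : T ⁻¹' {x : E N | ‖x‖ ^ 2 = N} = {x : E N | ‖x‖ ^ 2 = N} := by
    ext x; simp
  rw [sphereLaw, ProbabilityTheory.cond, Measure.map_smul]
  congr 1
  conv_rhs => rw [← h1]
  rw [Measure.restrict_map T.continuous.measurable (meas_sph N), h2]

theorem sphereLaw_ae (N : ℕ) : ∀ᵐ x ∂sphereLaw N, ‖x‖ = √N := by
  have : ∀ᵐ x ∂sphereLaw N, x ∈ {x : E N | ‖x‖ ^ 2 = N} := ae_cond_mem (meas_sph N)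
  filter_upwards [this] with x hx
  rw [← hx, Real.sqrt_sq (norm_nonneg _)]

theorem sphereLaw_gauss {N : ℕ} (hN : 1 ≤ N) :
    sphereLaw N = (stdGaussian (E N)).map fun z => (√(N : ℝ) / ‖z‖) • z := by
  haveI := sphereLaw_prob hN
  have hm : Measurable fun z : E N => (√(N : ℝ) / ‖z‖) • z := by fun_prop
  haveI := Measure.isProbabilityMeasure_map (μ := stdGaussian (E N)) hm.aemeasurable
  have hR : 0 < √(N : ℝ) := by positivity
  refine eq_of_invariant (sphereLaw_inv N) (fun T => ?_) hR (sphereLaw_ae N) ?_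
  · conv_rhs => rw [← stdGaussian_map T]
    rw [Measure.map_map T.continuous.measurable hm, Measure.map_map hm T.continuous.measurable]
    congr 1
    funext z
    simp
  · rw [ae_map_iff hm.aemeasurable (isClosed_eq (by fun_prop) continuous_const).measurableSet]
    have h0 : stdGaussian (E N) {0} = 0 := by
      rw [← map_pi_eq_stdGaussian, Measure.map_apply (by fun_prop) (measurableSet_singleton _)]
      haveI : Nonempty (Fin N) := ⟨⟨0, hN⟩⟩
      haveI : NullSingletonClass (gaussianReal 0 1) := nullSingletonClass_gaussianReal one_ne_zero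
      have : (WithLp.toLp 2 : (Fin N → ℝ) → E N) ⁻¹' {0} = {0} := by
        ext z; simp
      rw [this]
      exact measure_singleton _
    have h1 : ∀ᵐ z ∂stdGaussian (E N), z ≠ 0 := by
      rw [ae_iff]
      simpa using h0
    filter_upwards [h1] with z hz
    rw [norm_smul, Real.norm_of_nonneg (by positivity), div_mul_cancel₀ _ (norm_ne_zero_iff.2 hz)]

end Vale.Agent.P157W88
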